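import Mathlib.Algebra.BigOperators.Intervals
import Mathlib.Algebra.Order.BigOperators.Group.Finset
import Mathlib.Data.Real.Basic
import Mathlib.Tactic

/-!
# P321: averages over symmetric windows
-/

set_option autoImplicit false

open Finset

namespace Vale.Agent.P321.R3.H524

/-- the extension of `φ` to the integers which is symmetric about `-1/2` -/
def ph0 (φ : ℕ → ℝ) (k : ℤ) : ℝ := φ (if 0 ≤ k then k.toNat else (-k - 1).toNat)

theorem ph0_nonneg {φ : ℕ → ℝ} (hφ : ∀ j, 0 ≤ φ j) (k : ℤ) : 0 ≤ ph0 φ k := hφ _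

theorem sum_ph0_eq (φ : ℕ → ℝ) (n : ℕ) (p : ℤ) :
    ∑ i ∈ range n, ph0 φ (p + i) + ∑ j ∈ range p.toNat, φ j +
        ∑ j ∈ range (-p - n).toNat, φ j =
      ∑ j ∈ range (p + n).toNat, φ j + ∑ j ∈ range (-p).toNat, φ j := by
  induction n with
  | zero => simp
  | succ n ih =>
    rw [Finset.sum_range_succ]
    rcases le_or_gt 0 (p + n) with h | h
    · have h1 : (-p - (n : ℤ)).toNat = 0 := by omega
      have h2 : (-p - ((n + 1 : ℕ) : ℤ)).toNat = 0 := by omega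
      have h3 : (p + ((n + 1 : ℕ) : ℤ)).toNat = (p + n).toNat + 1 := by omega
      have h4 : ph0 φ (p + n) = φ (p + n).toNat := by unfold ph0; rw [if_pos h]
      rw [h1] at ih
      rw [h2, h3, h4, Finset.sum_range_succ]
      linarith
    · have h1 : (-p - (n : ℤ)).toNat = (-p - ((n + 1 : ℕ) : ℤ)).toNat + 1 := by omega
      have h2 : (p + (n : ℤ)).toNat = 0 := by omega
      have h3 : (p + ((n + 1 : ℕ) : ℤ)).toNat = 0 := by omega
      have h4 : ph0 φ (p + n) = φ (-p - ((n + 1 : ℕ) : ℤ)).toNat := by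
        unfold ph0
        rw [if_neg (by omega)]
        congr 2
        push_cast
        ring
      rw [h1, Finset.sum_range_succ, h2] at ih
      rw [h3, h4]
      linarith

theorem S_nonneg {φ : ℕ → ℝ} (hφ : ∀ j, 0 ≤ φ j) (n : ℕ) : 0 ≤ ∑ j ∈ range n, φ j :=
  Finset.sum_nonneg (fun j _ => hφ j)

theorem S_mono {φ : ℕ → ℝ} (hφ : ∀ j, 0 ≤ φ j) {m n : ℕ} (h : m ≤ n) :
    ∑ j ∈ range m, φ j ≤ ∑ j ∈ range n, φ j :=
  Finset.sum_le_sum_of_subset_of_nonneg (Finset.range_mono h) (fun j _ _ => hφ j)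

/-- (1) the sum over a window -/
theorem sum_ph0_le {φ : ℕ → ℝ} (hφ : ∀ j, 0 ≤ φ j) (n : ℕ) (p : ℤ) :
    ∑ i ∈ range n, ph0 φ (p + i) ≤
      ∑ j ∈ range (p + n).toNat, φ j + ∑ j ∈ range (-p).toNat, φ j := by
  have h := sum_ph0_eq φ n p
  have h1 := S_nonneg hφ p.toNat
  have h2 := S_nonneg hφ (-p - n).toNat
  linarith

/-- the sum over a reflected window -/
theorem sum_ph0_refl (φ : ℕ → ℝ) (n : ℕ) (q : ℤ) :
    ∑ i ∈ range n, ph0 φ (q - i) = ∑ i ∈ range n, ph0 φ (q - n + 1 + i) := by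
  rw [← Finset.sum_range_reflect]
  refine Finset.sum_congr rfl (fun i hi => ?_)
  have hi' := Finset.mem_range.mp hi
  congr 1
  omega

theorem sum_ph0_refl_le {φ : ℕ → ℝ} (hφ : ∀ j, 0 ≤ φ j) (n : ℕ) (q : ℤ) :
    ∑ i ∈ range n, ph0 φ (q - i) ≤
      ∑ j ∈ range (q + 1).toNat, φ j + ∑ j ∈ range (n - 1 - q).toNat, φ j := by
  rw [sum_ph0_refl]
  refine (sum_ph0_le hφ n _).trans (le_of_eq ?_)
  have e1 : (q - n + 1 + n).toNat = (q + 1).toNat := by omega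
  have e2 : (-(q - (n : ℤ) + 1)).toNat = (n - 1 - q).toNat := by omega
  rw [e1, e2]

/-- the first threshold -/
noncomputable def T1 (φ : ℕ → ℝ) (H : ℕ) : ℝ :=
  ((∑ j ∈ range (H + (H + 7) / 2), φ j) + ∑ j ∈ range (H + 1), φ j) / H

theorem T1_nonneg {φ : ℕ → ℝ} (hφ : ∀ j, 0 ≤ φ j) (H : ℕ) : 0 ≤ T1 φ H :=
  div_nonneg (add_nonneg (S_nonneg hφ _) (S_nonneg hφ _)) (Nat.cast_nonneg _)

theorem T1_mul {φ : ℕ → ℝ} {H : ℕ} (hH : 4 ≤ H) :
    T1 φ H * H = (∑ j ∈ range (H + (H + 7) / 2), φ j) + ∑ j ∈ range (H + 1), φ j := by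
  have : (H : ℝ) ≠ 0 := by
    have : H ≠ 0 := by omega
    exact_mod_cast this
  unfold T1
  field_simp

theorem two_T1_le {φ : ℕ → ℝ} (hφ : ∀ j, 0 ≤ φ j) {H : ℕ} (hH : 4 ≤ H) {T : ℝ}
    (h : 6 * (∑ j ∈ range (H + 1), φ j) + 4 * (∑ j ∈ range (H + (H + 7) / 2), φ j) +
      2 * (∑ j ∈ range (2 * H + 1), φ j) ≤ 2 * H * T) : 2 * T1 φ H ≤ T := by
  have hH0 : (0 : ℝ) < H := by
    have : 0 < H := by omega
    exact_mod_cast this
  have h1 := T1_mul (φ := φ) hH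
  have h2 := S_nonneg hφ (H + 1)
  have h3 := S_nonneg hφ (2 * H + 1)
  have h4 : (2 * T1 φ H) * H ≤ T * H := by
    have : (2 * T1 φ H) * H = 2 * (T1 φ H * H) := by ring
    rw [this, h1]
    linarith
  exact le_of_mul_le_mul_right h4 hH0

/-- (2a) -/
theorem pair_a {φ : ℕ → ℝ} (hφ : ∀ j, 0 ≤ φ j) {H : ℕ} (hH : 4 ≤ H) {z : ℕ}
    (hz : 2 * z ≤ H + 3) :
    ∃ x : ℤ, (z : ℤ) - H ≤ x ∧ x ≤ z + H - 1 ∧
      ph0 φ x + ph0 φ (2 * z - 1 - x) ≤ T1 φ H := by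
  have hne : (range (2 * H)).Nonempty := ⟨0, Finset.mem_range.mpr (by omega)⟩
  have h1 := sum_ph0_le hφ (2 * H) ((z : ℤ) - H)
  have h2 := sum_ph0_refl_le hφ (2 * H) ((z : ℤ) + H - 1)
  have e1 : (((z : ℤ) - H) + ((2 * H : ℕ) : ℤ)).toNat = z + H := by omega
  have e2 : (-((z : ℤ) - H)).toNat = H - z := by omega
  have e3 : (((z : ℤ) + H - 1) + 1).toNat = z + H := by omega
  have e4 : (((2 * H : ℕ) : ℤ) - 1 - ((z : ℤ) + H - 1)).toNat = H - z := by omega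
  rw [e1, e2] at h1
  rw [e3, e4] at h2
  have m1 := S_mono hφ (show z + H ≤ H + (H + 7) / 2 by omega)
  have m2 := S_mono hφ (show H - z ≤ H + 1 by omega)
  have h3 : ∑ i ∈ range (2 * H), (ph0 φ ((z : ℤ) - H + i) + ph0 φ ((z : ℤ) + H - 1 - i)) ≤
      ∑ i ∈ range (2 * H), T1 φ H := by
    rw [Finset.sum_add_distrib, Finset.sum_const, Finset.card_range, nsmul_eq_mul]
    have h4 : ((2 * H : ℕ) : ℝ) * T1 φ H = 2 * (T1 φ H * H) := by push_cast; ring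
    rw [h4, T1_mul hH]
    linarith
  obtain ⟨i, hi, hle⟩ := Finset.exists_le_of_sum_le hne h3
  have hi' := Finset.mem_range.mp hi
  refine ⟨(z : ℤ) - H + i, by omega, by omega, ?_⟩
  have e5 : (2 * (z : ℤ) - 1 - ((z : ℤ) - H + i)) = (z : ℤ) + H - 1 - i := by ring
  rw [e5]
  exact hle

/-- (2b) -/
theorem quad_b {φ : ℕ → ℝ} (hφ : ∀ j, 0 ≤ φ j) {H : ℕ} (hH : 4 ≤ H) {T : ℝ}
    (h : 6 * (∑ j ∈ range (H + 1), φ j) + 4 * (∑ j ∈ range (H + (H + 7) / 2), φ j) +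
      2 * (∑ j ∈ range (2 * H + 1), φ j) ≤ 2 * H * T) {z : ℕ} (hz : 2 * z ≤ H + 1) {x x' : ℤ}
    (hx1 : (z : ℤ) - H ≤ x) (hx2 : x ≤ z + H - 1) (hx1' : (z : ℤ) + 1 - H ≤ x')
    (hx2' : x' ≤ z + H) :
    ∃ y : ℤ, (z : ℤ) - H ≤ y ∧ y ≤ z + H - 1 ∧
      ph0 φ y + ph0 φ (2 * z - 1 - y) + ph0 φ (x - y) + ph0 φ (x' - y) ≤ T - T1 φ H := by
  have hne : (range (2 * H)).Nonempty := ⟨0, Finset.mem_range.mpr (by omega)⟩
  have h1 := sum_ph0_le hφ (2 * H) ((z : ℤ) - H)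
  have h2 := sum_ph0_refl_le hφ (2 * H) ((z : ℤ) + H - 1)
  have h3 := sum_ph0_refl_le hφ (2 * H) (x - ((z : ℤ) - H))
  have h4 := sum_ph0_refl_le hφ (2 * H) (x' - ((z : ℤ) - H))
  have e1 : (((z : ℤ) - H) + ((2 * H : ℕ) : ℤ)).toNat = z + H := by omega
  have e2 : (-((z : ℤ) - H)).toNat = H - z := by omega
  have e3 : (((z : ℤ) + H - 1) + 1).toNat = z + H := by omega
  have e4 : (((2 * H : ℕ) : ℤ) - 1 - ((z : ℤ) + H - 1)).toNat = H - z := by omega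
  rw [e1, e2] at h1
  rw [e3, e4] at h2
  have m1 := S_mono hφ (show z + H ≤ H + (H + 7) / 2 by omega)
  have m2 := S_mono hφ (show H - z ≤ H + 1 by omega)
  -- the windows around x and x'
  have key : ∀ q : ℤ, 0 ≤ q → q ≤ 2 * H →
      ∑ j ∈ range (q + 1).toNat, φ j +
        ∑ j ∈ range (((2 * H : ℕ) : ℤ) - 1 - q).toNat, φ j ≤
      ∑ j ∈ range (H + 1), φ j + ∑ j ∈ range (2 * H + 1), φ j := by
    intro q hq0 hq1
    rcases le_or_gt q H with hq | hq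
    · have a1 := S_mono hφ (show (q + 1).toNat ≤ H + 1 by omega)
      have a2 := S_mono hφ (show (((2 * H : ℕ) : ℤ) - 1 - q).toNat ≤ 2 * H + 1 by omega)
      linarith
    · have a1 := S_mono hφ (show (q + 1).toNat ≤ 2 * H + 1 by omega)
      have a2 := S_mono hφ (show (((2 * H : ℕ) : ℤ) - 1 - q).toNat ≤ H + 1 by omega)
      linarith
  have k3 := key (x - ((z : ℤ) - H)) (by omega) (by omega)
  have k4 := key (x' - ((z : ℤ) - H)) (by omega) (by omega)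
  have h5 : ∑ i ∈ range (2 * H), (ph0 φ ((z : ℤ) - H + i) + ph0 φ ((z : ℤ) + H - 1 - i) +
      ph0 φ (x - ((z : ℤ) - H) - i) + ph0 φ (x' - ((z : ℤ) - H) - i)) ≤
      ∑ i ∈ range (2 * H), (T - T1 φ H) := by
    rw [Finset.sum_add_distrib, Finset.sum_add_distrib, Finset.sum_add_distrib,
      Finset.sum_const, Finset.card_range, nsmul_eq_mul]
    have h6 : ((2 * H : ℕ) : ℝ) * (T - T1 φ H) = 2 * H * T - 2 * (T1 φ H * H) := by
      push_cast; ring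
    rw [h6, T1_mul hH]
    linarith
  obtain ⟨i, hi, hle⟩ := Finset.exists_le_of_sum_le hne h5
  have hi' := Finset.mem_range.mp hi
  refine ⟨(z : ℤ) - H + i, by omega, by omega, ?_⟩
  have e5 : (2 * (z : ℤ) - 1 - ((z : ℤ) - H + i)) = (z : ℤ) + H - 1 - i := by ring
  have e6 : x - ((z : ℤ) - H + i) = x - ((z : ℤ) - H) - i := by ring
  have e7 : x' - ((z : ℤ) - H + i) = x' - ((z : ℤ) - H) - i := by ring
  rw [e5, e6, e7]
  exact hle

/-- (2c) -/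
theorem single_c {φ : ℕ → ℝ} (hφ : ∀ j, 0 ≤ φ j) {H : ℕ} (hH : 4 ≤ H) {T : ℝ}
    (h : 6 * (∑ j ∈ range (H + 1), φ j) + 4 * (∑ j ∈ range (H + (H + 7) / 2), φ j) +
      2 * (∑ j ∈ range (2 * H + 1), φ j) ≤ 2 * H * T) :
    ∃ a : ℕ, a ≤ H ∧ φ a ≤ T - T1 φ H := by
  have hH0 : (0 : ℝ) < H := by
    have : 0 < H := by omega
    exact_mod_cast this
  have hne : (range (H + 1)).Nonempty := ⟨0, Finset.mem_range.mpr (by omega)⟩
  have m1 := S_mono hφ (show H + 1 ≤ H + (H + 7) / 2 by omega)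
  have m2 := S_mono hφ (show H + 1 ≤ 2 * H + 1 by omega)
  have m0 := S_nonneg hφ (H + 1)
  have h1 : ∑ j ∈ range (H + 1), φ j ≤ ∑ j ∈ range (H + 1), (T - T1 φ H) := by
    rw [Finset.sum_const, Finset.card_range, nsmul_eq_mul]
    have h2 : (T - T1 φ H) * H = H * T - T1 φ H * H := by ring
    have h3 : 4 * (∑ j ∈ range (H + 1), φ j) ≤ (T - T1 φ H) * H := by
      rw [h2, T1_mul hH]; linarith
    have h4 : 0 ≤ T - T1 φ H := by
      by_contra hcon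
      push Not at hcon
      have := mul_neg_of_neg_of_pos hcon hH0
      linarith
    have h5 : ((H + 1 : ℕ) : ℝ) * (T - T1 φ H) = (T - T1 φ H) * H + (T - T1 φ H) := by
      push_cast; ring
    rw [h5]
    linarith
  obtain ⟨i, hi, hle⟩ := Finset.exists_le_of_sum_le hne h1
  exact ⟨i, by have := Finset.mem_range.mp hi; omega, hle⟩

end Vale.Agent.P321.R3.H524
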